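import Vale.Agent.P033.Compression

/-
P033: circulant Hadamard matrices with a multiplier of the 4-compression.
-/

open Finset

namespace Vale.Agent.Results.P033.MultiplierCompression

theorem result : ∀ (n : ℕ) [NeZero n] (h : ZMod n → ℤ), (∀ j, h j = 1 ∨ h j = -1) →
    (∀ s : ZMod n, s ≠ 0 → ∑ j, h j * h (j + s) = 0) →
    (∃ (t c : ZMod (n / 4)) (e : ℕ),
      (∀ x : ZMod (n / 4),
        (∑ j ∈ univ.filter (fun j : ZMod n => (j.val : ZMod (n / 4)) = t * x + c), h j)
          = ∑ j ∈ univ.filter (fun j : ZMod n => (j.val : ZMod (n / 4)) = x), h j) ∧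
      (t ^ e = -1 ∨
        ((∀ p, p.Prime → p ∣ n / 4 → p ∣ (t ^ e - 1).val) ∧
          4 * (n / 4) < (n / 4).totient * orderOf (t ^ e)))) →
    n = 1 ∨ n = 4 := by
  intro n _ h hh hP hyp
  obtain ⟨t, c, e, hV, he | ⟨hz, hbig⟩⟩ := hyp
  · exact Vale.Agent.P033.symmetric_compression h hh hP ⟨t, c, e, he, hV⟩
  · exact Vale.Agent.P033.multiplier_compression h hh hP t c e hV hz hbig

end Vale.Agent.Results.P033.MultiplierCompression
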